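import Vale.Agent.P340N2.Tr

/-!
Adequacy: the translation is injective, and it preserves and reflects reduction steps.
-/

namespace Vale.Agent.P340N2

universe u v

open P340 (Tm)
open P340.Tm Raw

variable {S : Type u} {V : Type v} [DecidableEq V]

omit [DecidableEq V] in
theorem Good.ne {σ : V → Tm S} (h : Good σ) (x : V) :
    (∀ s, σ x ≠ .sort s) ∧ (∀ M N, σ x ≠ .app M N) ∧ (∀ M N, σ x ≠ .lam M N) ∧
      ∀ M N, σ x ≠ .pi M N := by
  obtain ⟨n, hn⟩ := h.2 x
  rw [hn]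
  exact ⟨fun _ => nofun, fun _ _ => nofun, fun _ _ => nofun, fun _ _ => nofun⟩

variable [Infinite V]

theorem exists_fresh (M N : Raw S V) : ∃ z, (z ∉ fv M ∧ z ∉ bv M) ∧ z ∉ fv N ∧ z ∉ bv N := by
  obtain ⟨z, hz⟩ := Infinite.exists_notMem_finset ((fv M ∪ bv M) ∪ (fv N ∪ bv N))
  exact ⟨z, by simpa only [Finset.mem_union, not_or] using hz⟩

theorem tr_inj (n : ℕ) : ∀ (M N : Raw S V) (σ : V → Tm S), sz M < n → Good σ →
    tr σ M = tr σ N → Expr.mk M = Expr.mk N := by
  induction n with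
  | zero => exact fun _ _ _ h => absurd h (Nat.not_lt_zero _)
  | succ n ih =>
    intro M N σ hn hσ e
    have key : ∀ (x y : V) (B B' : Raw S V), sz B < n → tr (lift x σ) B = tr (lift y σ) B' →
        ∃ z, (z ∉ fv B ∧ z ∉ bv B) ∧ (z ∉ fv B' ∧ z ∉ bv B') ∧
          Expr.mk (rep B x (.var z)) = Expr.mk (rep B' y (.var z)) := fun x y B B' h1 h2 => by
      obtain ⟨z, h3, h4⟩ := exists_fresh B B'
      refine ⟨z, h3, h4, ih _ _ _ (by rwa [sz_rep]) (hσ.lift z) ?_⟩
      rw [tr_ren h3.1 h3.2, tr_ren h4.1 h4.2, h2]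
    cases M with
    | var x =>
      cases N with
      | var y => rw [hσ.1 e]
      | sort s => exact absurd e ((hσ.ne x).1 _)
      | app _ _ => exact absurd e ((hσ.ne x).2.1 _ _)
      | lam _ _ _ => exact absurd e ((hσ.ne x).2.2.1 _ _)
      | pi _ _ _ => exact absurd e ((hσ.ne x).2.2.2 _ _)
    | sort s =>
      cases N with
      | var y => exact absurd e.symm ((hσ.ne y).1 _)
      | sort t => rw [Tm.sort.inj e]
      | _ => cases e
    | app A B =>
      cases N with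
      | var y => exact absurd e.symm ((hσ.ne y).2.1 _ _)
      | app A' B' =>
        rw [sz] at hn
        exact congrArg₂ Expr.app (ih A A' σ (by omega) hσ (Tm.app.inj e).1)
          (ih B B' σ (by omega) hσ (Tm.app.inj e).2)
      | _ => cases e
    | lam x A B =>
      cases N with
      | var y => exact absurd e.symm ((hσ.ne y).2.2.1 _ _)
      | lam y A' B' =>
        rw [sz] at hn
        obtain ⟨z, h1, h2, h3⟩ := key x y B B' (by omega) (Tm.lam.inj e).2
        exact (Quot.sound (.lam x z A B h1.1 h1.2)).trans ((congrArg₂ (Expr.lam z)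
          (ih A A' σ (by omega) hσ (Tm.lam.inj e).1) h3).trans
          (Quot.sound (.lam y z A' B' h2.1 h2.2)).symm)
      | _ => cases e
    | pi x A B =>
      cases N with
      | var y => exact absurd e.symm ((hσ.ne y).2.2.2 _ _)
      | pi y A' B' =>
        rw [sz] at hn
        obtain ⟨z, h1, h2, h3⟩ := key x y B B' (by omega) (Tm.pi.inj e).2
        exact (Quot.sound (.pi x z A B h1.1 h1.2)).trans ((congrArg₂ (Expr.pi z)
          (ih A A' σ (by omega) hσ (Tm.pi.inj e).1) h3).trans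
          (Quot.sound (.pi y z A' B' h2.1 h2.2)).symm)
      | _ => cases e

theorem trq_inj {σ : V → Tm S} (h : Good σ) {M N : Expr S V} (e : trq σ M = trq σ N) : M = N := by
  induction M using Quot.ind
  induction N using Quot.ind
  exact tr_inj _ _ _ σ (Nat.lt_succ_self _) h e

theorem exists_rep (s : Finset V) (M : Raw S V) :
    ∃ M', Expr.mk M' = Expr.mk M ∧ Disjoint (bv M') s := by
  have key : ∀ B : Raw S V, ∃ z, z ∉ s ∧ z ∉ fv B ∧ z ∉ bv B := fun B => by
    obtain ⟨z, hz⟩ := Infinite.exists_notMem_finset (s ∪ (fv B ∪ bv B))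
    exact ⟨z, by simpa only [Finset.mem_union, not_or] using hz⟩
  induction M with
  | var x => exact ⟨_, rfl, Finset.disjoint_empty_left _⟩
  | sort x => exact ⟨_, rfl, Finset.disjoint_empty_left _⟩
  | app A B ihA ihB =>
    obtain ⟨A', h1, h2⟩ := ihA
    obtain ⟨B', h3, h4⟩ := ihB
    exact ⟨.app A' B', congrArg₂ Expr.app h1 h3, Finset.disjoint_union_left.2 ⟨h2, h4⟩⟩
  | lam x A B ihA ihB =>
    obtain ⟨A', h1, h2⟩ := ihA
    obtain ⟨B', h3, h4⟩ := ihB
    obtain ⟨z, h5, h6, h7⟩ := key B'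
    refine ⟨.lam z A' (rep B' x (.var z)), (Quot.sound (.lam x z A' B' h6 h7)).symm.trans
      (congrArg₂ (Expr.lam x) h1 h3), ?_⟩
    rw [bv, bv_rep, Finset.disjoint_insert_left, Finset.disjoint_union_left]
    exact ⟨h5, h2, h4⟩
  | pi x A B ihA ihB =>
    obtain ⟨A', h1, h2⟩ := ihA
    obtain ⟨B', h3, h4⟩ := ihB
    obtain ⟨z, h5, h6, h7⟩ := key B'
    refine ⟨.pi z A' (rep B' x (.var z)), (Quot.sound (.pi x z A' B' h6 h7)).symm.trans
      (congrArg₂ (Expr.pi x) h1 h3), ?_⟩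
    rw [bv, bv_rep, Finset.disjoint_insert_left, Finset.disjoint_union_left]
    exact ⟨h5, h2, h4⟩

theorem exists_sub (M : Expr S V) (x : V) (N : Expr S V) : ∃ Q, IsSub M x N Q := by
  induction M using Quot.ind with | _ m => ?_
  induction N using Quot.ind with | _ n => ?_
  obtain ⟨m', h1, h2⟩ := exists_rep (fv n) m
  exact ⟨_, m', n, h1, rfl, h2, rfl⟩

omit [Infinite V] in
theorem Step.trq {M N : Expr S V} (h : Step M N) :
    ∀ σ : V → Tm S, P340.Step (trq σ M) (trq σ N) := by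
  induction h with
  | beta x A M N Q h => intro σ; rw [trq_app, trq_lam, h.trq_eq]; exact .beta _ _ _
  | appL N _ ih => intro σ; rw [trq_app, trq_app]; exact .appL _ (ih σ)
  | appR N _ ih => intro σ; rw [trq_app, trq_app]; exact .appR _ (ih σ)
  | lamL x N _ ih => intro σ; rw [trq_lam, trq_lam]; exact .lamL _ (ih σ)
  | lamR x N _ ih => intro σ; rw [trq_lam, trq_lam]; exact .lamR _ (ih _)
  | piL x N _ ih => intro σ; rw [trq_pi, trq_pi]; exact .piL _ (ih σ)
  | piR x N _ ih => intro σ; rw [trq_pi, trq_pi]; exact .piR _ (ih _)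

omit [Infinite V] in
theorem inv_lam {σ : V → Tm S} (h : Good σ) {M : Raw S V} {A B : Tm S}
    (e : tr σ M = .lam A B) : ∃ x a b, M = .lam x a b := by
  cases M with
  | var y => exact absurd e ((h.ne y).2.2.1 _ _)
  | lam x a b => exact ⟨x, a, b, rfl⟩
  | _ => cases e

omit [Infinite V] in
theorem inv_pi {σ : V → Tm S} (h : Good σ) {M : Expr S V} {A B : Tm S}
    (e : trq σ M = .pi A B) : ∃ x a b, M = .pi x a b := by
  induction M using Quot.ind with | _ M => ?_
  cases M with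
  | var y => exact absurd e ((h.ne y).2.2.2 _ _)
  | pi x a b => exact ⟨x, .mk a, .mk b, rfl⟩
  | _ => cases e

omit [Infinite V] [DecidableEq V] in
theorem step_app {M N T : Tm S} (h : P340.Step (.app M N) T) :
    (∃ A B, M = .lam A B ∧ T = inst B N) ∨ (∃ M', P340.Step M M' ∧ T = .app M' N) ∨
      ∃ N', P340.Step N N' ∧ T = .app M N' := by
  cases h with
  | beta A B N => exact .inl ⟨A, B, rfl, rfl⟩
  | appL N h => exact .inr (.inl ⟨_, h, rfl⟩)
  | appR M h => exact .inr (.inr ⟨_, h, rfl⟩)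

theorem lift_step (M : Raw S V) : ∀ (σ : V → Tm S) (T : Tm S), Good σ → P340.Step (tr σ M) T →
    ∃ N, Step (.mk M) N ∧ trq σ N = T := by
  induction M with
  | var x =>
    intro σ T hσ h
    obtain ⟨n, hn⟩ := hσ.2 x
    rw [tr, hn] at h
    cases h
  | sort s => intro σ T hσ h; cases h
  | app A B ihA ihB =>
    intro σ T hσ h
    rcases step_app h with ⟨a, b, h1, rfl⟩ | ⟨M', h1, rfl⟩ | ⟨N', h1, rfl⟩
    · obtain ⟨x, a', b', rfl⟩ := inv_lam hσ h1
      obtain ⟨Q, hQ⟩ := exists_sub (.mk b') x (.mk B)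
      exact ⟨Q, .beta x (.mk a') _ _ Q hQ, by rw [hQ.trq_eq, ← (Tm.lam.inj h1).2]; rfl⟩
    · obtain ⟨N, h2, rfl⟩ := ihA σ _ hσ h1
      exact ⟨_, .appL (.mk B) h2, trq_app σ _ _⟩
    · obtain ⟨N, h2, rfl⟩ := ihB σ _ hσ h1
      exact ⟨_, .appR (.mk A) h2, trq_app σ _ _⟩
  | lam x A B ihA ihB =>
    intro σ T hσ h
    rw [tr] at h
    cases h with
    | lamL _ h1 =>
      obtain ⟨N, h2, rfl⟩ := ihA σ _ hσ h1
      exact ⟨_, .lamL x (.mk B) h2, trq_lam σ _ _ _⟩
    | lamR _ h1 =>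
      obtain ⟨N, h2, rfl⟩ := ihB _ _ (hσ.lift x) h1
      exact ⟨_, .lamR x (.mk A) h2, trq_lam σ _ _ _⟩
  | pi x A B ihA ihB =>
    intro σ T hσ h
    rw [tr] at h
    cases h with
    | piL _ h1 =>
      obtain ⟨N, h2, rfl⟩ := ihA σ _ hσ h1
      exact ⟨_, .piL x (.mk B) h2, trq_pi σ _ _ _⟩
    | piR _ h1 =>
      obtain ⟨N, h2, rfl⟩ := ihB _ _ (hσ.lift x) h1
      exact ⟨_, .piR x (.mk A) h2, trq_pi σ _ _ _⟩

theorem lift_stepq {σ : V → Tm S} (hσ : Good σ) {M : Expr S V} {T : Tm S}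
    (h : P340.Step (trq σ M) T) : ∃ N, Step M N ∧ trq σ N = T := by
  induction M using Quot.ind
  exact lift_step _ σ T hσ h

theorem lift_red {σ : V → Tm S} (hσ : Good σ) {M : Expr S V} {T : Tm S}
    (h : P340.Red (trq σ M) T) : ∃ N, Relation.EqvGen Step M N ∧ trq σ N = T := by
  induction h with
  | refl => exact ⟨M, .refl M, rfl⟩
  | tail _ h ih =>
    obtain ⟨N, h1, rfl⟩ := ih
    obtain ⟨N', h2, h3⟩ := lift_stepq hσ h
    exact ⟨N', .trans _ _ _ h1 (.rel _ _ h2), h3⟩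

theorem lift_conv {σ : V → Tm S} (hσ : Good σ) {M N : Expr S V}
    (h : P340.Conv (trq σ M) (trq σ N)) : Relation.EqvGen Step M N := by
  obtain ⟨Q, h1, h2⟩ := h.cr
  obtain ⟨A, h3, rfl⟩ := lift_red hσ h1
  obtain ⟨B, h4, h5⟩ := lift_red hσ h2
  rw [trq_inj hσ h5] at h4
  exact .trans _ _ _ h3 (.symm _ _ h4)

end Vale.Agent.P340N2
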