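import Mathlib.Logic.Relation
import Mathlib.Data.Quot
import Mathlib.Data.Finset.Basic
import Mathlib.Data.Nat.Notation

/-!
Pure type systems with named variables: expressions modulo renaming of bound variables.
-/

namespace Vale.Agent.P340N2

universe u v

/-- A pure type specification: sorts `S`, axioms `ax` and rules `rule`. -/
structure PTS (S : Type u) where
  ax : S → S → Prop
  rule : S → S → S → Prop

/-- The grammar `x | s | M N | λx:A.M | Πx:A.B`, with sorts in `S` and variables in `V`. -/
inductive Raw (S : Type u) (V : Type v) : Type (max u v) where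
  | var : V → Raw S V
  | sort : S → Raw S V
  | app : Raw S V → Raw S V → Raw S V
  | lam : V → Raw S V → Raw S V → Raw S V
  | pi : V → Raw S V → Raw S V → Raw S V

variable {S : Type u} {V : Type v} [DecidableEq V]

namespace Raw

/-- The free variables. -/
def fv : Raw S V → Finset V
  | var x => {x}
  | sort _ => ∅
  | app M N => fv M ∪ fv N
  | lam x A M => fv A ∪ (fv M).erase x
  | pi x A B => fv A ∪ (fv B).erase x

/-- The variables that are bound by some `λ` or `Π`. -/
def bv : Raw S V → Finset V
  | var _ => ∅
  | sort _ => ∅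
  | app M N => bv M ∪ bv N
  | lam x A M => insert x (bv A ∪ bv M)
  | pi x A B => insert x (bv A ∪ bv B)

/-- `rep M x N` replaces the free occurrences of `x` in `M` by `N`. -/
def rep : Raw S V → V → Raw S V → Raw S V
  | var y, x, N => if y = x then N else var y
  | sort s, _, _ => sort s
  | app M M', x, N => app (rep M x N) (rep M' x N)
  | lam y A M, x, N => lam y (rep A x N) (if y = x then M else rep M x N)
  | pi y A B, x, N => pi y (rep A x N) (if y = x then B else rep B x N)

/-- One change of a bound variable, in any subexpression: `λx:A.M` becomes `λy:A.M[x:=y]`, where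
`y` does not occur in `M` at all; likewise for `Π`. -/
inductive Chg : Raw S V → Raw S V → Prop where
  | lam (x y : V) (A M : Raw S V) : y ∉ fv M → y ∉ bv M →
      Chg (lam x A M) (lam y A (rep M x (var y)))
  | pi (x y : V) (A B : Raw S V) : y ∉ fv B → y ∉ bv B →
      Chg (pi x A B) (pi y A (rep B x (var y)))
  | appL {M M' : Raw S V} (N : Raw S V) : Chg M M' → Chg (app M N) (app M' N)
  | appR (M : Raw S V) {N N' : Raw S V} : Chg N N' → Chg (app M N) (app M N')
  | lamL (x : V) {A A' : Raw S V} (M : Raw S V) : Chg A A' → Chg (lam x A M) (lam x A' M)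
  | lamR (x : V) (A : Raw S V) {M M' : Raw S V} : Chg M M' → Chg (lam x A M) (lam x A M')
  | piL (x : V) {A A' : Raw S V} (B : Raw S V) : Chg A A' → Chg (pi x A B) (pi x A' B)
  | piR (x : V) (A : Raw S V) {B B' : Raw S V} : Chg B B' → Chg (pi x A B) (pi x A B')

end Raw

/-- Expressions: the grammar modulo renaming of bound variables. -/
def Expr (S : Type u) (V : Type v) [DecidableEq V] : Type (max u v) :=
  Quot (Raw.Chg (S := S) (V := V))

namespace Expr

/-- The class of a word of the grammar. -/
def mk (M : Raw S V) : Expr S V := Quot.mk _ M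

/-- The variable `x`. -/
def var (x : V) : Expr S V := mk (.var x)

/-- The sort `s`. -/
def sort (s : S) : Expr S V := mk (.sort s)

/-- The application `M N`. -/
def app : Expr S V → Expr S V → Expr S V :=
  Quot.map₂ Raw.app (fun M _ _ => .appR M) fun _ _ N => .appL N

/-- The abstraction `λx:A.M`. -/
def lam (x : V) : Expr S V → Expr S V → Expr S V :=
  Quot.map₂ (Raw.lam x) (fun A _ _ => .lamR x A) fun _ _ M => .lamL x M

/-- The product `Πx:A.B`. -/
def pi (x : V) : Expr S V → Expr S V → Expr S V :=
  Quot.map₂ (Raw.pi x) (fun A _ _ => .piR x A) fun _ _ B => .piL x B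

end Expr

open Expr

/-- `Q = M[x:=N]`: replace `x` by `N` in representatives such that no variable bound in `M` is
free in `N`. -/
def IsSub (M : Expr S V) (x : V) (N Q : Expr S V) : Prop :=
  ∃ m n : Raw S V, mk m = M ∧ mk n = N ∧ Disjoint m.bv n.fv ∧ mk (m.rep x n) = Q

/-- One-step beta reduction: the compatible closure of `(λx:A.M) N → M[x:=N]`. -/
inductive Step : Expr S V → Expr S V → Prop where
  | beta (x : V) (A M N Q : Expr S V) : IsSub M x N Q → Step (app (lam x A M) N) Q
  | appL {M M' : Expr S V} (N : Expr S V) : Step M M' → Step (app M N) (app M' N)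
  | appR (M : Expr S V) {N N' : Expr S V} : Step N N' → Step (app M N) (app M N')
  | lamL (x : V) {A A' : Expr S V} (M : Expr S V) : Step A A' → Step (lam x A M) (lam x A' M)
  | lamR (x : V) (A : Expr S V) {M M' : Expr S V} : Step M M' → Step (lam x A M) (lam x A M')
  | piL (x : V) {A A' : Expr S V} (B : Expr S V) : Step A A' → Step (pi x A B) (pi x A' B)
  | piR (x : V) (A : Expr S V) {B B' : Expr S V} : Step B B' → Step (pi x A B) (pi x A B')

/-- The typing relation, the least relation closed under the seven rules. A context is a list of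
declarations `(x, A)`, the last appended one first; appended variables are fresh. -/
inductive Typ (P : PTS S) : List (V × Expr S V) → Expr S V → Expr S V → Prop where
  | ax {s t : S} : P.ax s t → Typ P [] (sort s) (sort t)
  | var {Γ : List (V × Expr S V)} {x : V} {A : Expr S V} {s : S} :
      x ∉ Γ.map Prod.fst → Typ P Γ A (sort s) → Typ P ((x, A) :: Γ) (var x) A
  | weak {Γ : List (V × Expr S V)} {x : V} {M B A : Expr S V} {s : S} :
      x ∉ Γ.map Prod.fst → Typ P Γ M B → Typ P Γ A (sort s) → Typ P ((x, A) :: Γ) M B
  | pi {Γ : List (V × Expr S V)} {x : V} {A B : Expr S V} {s₁ s₂ s₃ : S} :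
      x ∉ Γ.map Prod.fst → Typ P Γ A (sort s₁) → Typ P ((x, A) :: Γ) B (sort s₂) →
      P.rule s₁ s₂ s₃ → Typ P Γ (pi x A B) (sort s₃)
  | lam {Γ : List (V × Expr S V)} {x : V} {A M B : Expr S V} {s : S} :
      x ∉ Γ.map Prod.fst → Typ P ((x, A) :: Γ) M B → Typ P Γ (pi x A B) (sort s) →
      Typ P Γ (lam x A M) (pi x A B)
  | app {Γ : List (V × Expr S V)} {x : V} {M N A B Q : Expr S V} :
      Typ P Γ M (pi x A B) → Typ P Γ N A → IsSub B x N Q → Typ P Γ (app M N) Q
  | conv {Γ : List (V × Expr S V)} {M A B : Expr S V} {s : S} :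
      Typ P Γ M A → Typ P Γ B (sort s) → Relation.EqvGen Step A B → Typ P Γ M B

/-- An expression is legal if it is the subject or the type of a derivable judgment. -/
def Legal (P : PTS S) (M : Expr S V) : Prop :=
  ∃ Γ A, Typ P Γ M A ∨ Typ P Γ A M

/-- Weak normalization: every legal expression reduces to a beta-normal form. -/
def WN (P : PTS S) (V : Type v) [DecidableEq V] : Prop :=
  ∀ M : Expr S V, Legal P M → ∃ N, Relation.ReflTransGen Step M N ∧ ∀ Q, ¬ Step N Q

/-- Strong normalization: no legal expression starts an infinite reduction sequence. -/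
def SN (P : PTS S) (V : Type v) [DecidableEq V] : Prop :=
  ∀ M : Expr S V, Legal P M → ¬ ∃ f : ℕ → Expr S V, f 0 = M ∧ ∀ n, Step (f n) (f (n + 1))

end Vale.Agent.P340N2
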