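import Vale.Agent.P340N2.Adq

/-!
Adequacy for typing, and the Barendregt-Geuvers-Klop conjecture for named expressions.
-/

namespace Vale.Agent.P340N2

universe u v

open P340 (Tm)
open P340.Tm

variable {S : Type u} {V : Type v} [DecidableEq V] {P : PTS S}

/-- The specification in the de Bruijn development. -/
def PTS.sp (P : PTS S) : P340.Spec S := ⟨P.ax, P.rule⟩

/-- The environment of a list of names. -/
def env (σ : V → Tm S) : List V → V → Tm S
  | [] => σ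
  | x :: l => lift x (env σ l)

/-- The translation of a context. -/
def ctx (σ : V → Tm S) : List (V × Expr S V) → List (Tm S)
  | [] => []
  | p :: Γ => trq (env σ (Γ.map Prod.fst)) p.2 :: ctx σ Γ

theorem Good.env {σ : V → Tm S} (h : Good σ) (l : List V) : Good (env σ l) := by
  induction l with
  | nil => exact h
  | cons x l ih => exact ih.lift x

theorem lift_agree {x : V} {l : List V} {σ σ' : V → Tm S} (h : ∀ y ∈ l, σ y = σ' y) :
    ∀ y ∈ x :: l, lift x σ y = lift x σ' y := by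
  intro y hy
  unfold lift
  split_ifs with h1
  · rfl
  · rw [h y ((List.mem_cons.1 hy).resolve_left h1)]

theorem Typ.dep {Γ : List (V × Expr S V)} {M B : Expr S V} (h : Typ P Γ M B) :
    ∀ σ σ' : V → Tm S, (∀ y ∈ Γ.map Prod.fst, σ y = σ' y) →
      trq σ M = trq σ' M ∧ trq σ B = trq σ' B := by
  induction h with
  | ax _ => exact fun _ _ _ => ⟨rfl, rfl⟩
  | var _ _ ih =>
    exact fun σ σ' h => ⟨h _ List.mem_cons_self,
      (ih σ σ' fun y hy => h y (List.mem_cons_of_mem _ hy)).1⟩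
  | weak _ _ _ ih _ => exact fun σ σ' h => ih σ σ' fun y hy => h y (List.mem_cons_of_mem _ hy)
  | pi _ _ _ _ ih ih' =>
    intro σ σ' h
    rw [trq_pi, trq_pi, (ih σ σ' h).1, (ih' _ _ (lift_agree h)).1]
    exact ⟨rfl, rfl⟩
  | lam _ _ _ ih ih' =>
    intro σ σ' h
    have h1 := (ih' σ σ' h).1
    refine ⟨?_, h1⟩
    rw [trq_pi, trq_pi] at h1
    rw [trq_lam, trq_lam, (Tm.pi.inj h1).1, (ih _ _ (lift_agree h)).1]
  | app _ _ hQ ih ih' =>
    intro σ σ' h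
    have h1 := (ih σ σ' h).2
    rw [trq_pi, trq_pi] at h1
    rw [trq_app, trq_app, hQ.trq_eq, hQ.trq_eq, (ih σ σ' h).1, (ih' σ σ' h).1, (Tm.pi.inj h1).2]
    exact ⟨rfl, rfl⟩
  | conv _ _ _ ih ih' => exact fun σ σ' h => ⟨(ih σ σ' h).1, (ih' σ σ' h).1⟩

theorem Typ.wk {Γ : List (V × Expr S V)} {M B : Expr S V} (h : Typ P Γ M B) {x : V}
    (hx : x ∉ Γ.map Prod.fst) (σ : V → Tm S) :
    trq (lift x σ) M = wk (trq σ M) ∧ trq (lift x σ) B = wk (trq σ B) := by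
  rw [wk_trq, wk_trq]
  exact h.dep _ _ fun y hy => if_neg fun e : y = x => hx (e ▸ hy)

theorem conv_trq {M N : Expr S V} (h : Relation.EqvGen Step M N) (σ : V → Tm S) :
    P340.Conv (trq σ M) (trq σ N) := by
  induction h with
  | rel _ _ h => exact .rel _ _ (h.trq σ)
  | refl _ => exact .refl _
  | symm _ _ _ ih => exact ih.symm
  | trans _ _ _ _ _ ih ih' => exact ih.trans ih'

theorem Typ.trq {Γ : List (V × Expr S V)} {M B : Expr S V} (h : Typ P Γ M B) (σ : V → Tm S) :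
    P340.Typ P.sp (ctx σ Γ) (trq (env σ (Γ.map Prod.fst)) M) (trq (env σ (Γ.map Prod.fst)) B) := by
  induction h with
  | ax h => exact .ax h
  | @var Γ x A s hx h ih =>
    have h1 : P340N2.trq (env σ (x :: Γ.map Prod.fst)) (.var x) = .var 0 := if_pos rfl
    rw [List.map_cons, h1, env, (h.wk hx _).1]
    exact .var ih
  | weak hx h _ ih ih' =>
    rw [List.map_cons, env, (h.wk hx _).1, (h.wk hx _).2]
    exact .weak ih ih'
  | pi _ _ _ h ih ih' =>
    rw [trq_pi]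
    exact .pi ih ih' h
  | lam _ _ _ ih ih' =>
    rw [trq_pi] at ih'
    rw [trq_lam, trq_pi]
    exact .lam ih ih'
  | app _ _ hQ ih ih' =>
    rw [trq_pi] at ih
    rw [trq_app, hQ.trq_eq]
    exact .app ih ih'
  | conv _ _ h ih ih' => exact .conv ih ih' (conv_trq h _)

variable [Infinite V] {σ : V → Tm S}

theorem ctx_inj (hσ : Good σ) : ∀ Γ Γ' : List (V × Expr S V),
    Γ.map Prod.fst = Γ'.map Prod.fst → ctx σ Γ = ctx σ Γ' → Γ = Γ'
  | [], [], _, _ => rfl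
  | [], _ :: _, h, _ => nomatch h
  | _ :: _, [], h, _ => nomatch h
  | (x, A) :: Γ, (y, B) :: Γ', h, h' => by
    obtain ⟨h1, h2⟩ := List.cons.inj h
    obtain ⟨h3, h4⟩ := List.cons.inj h'
    obtain rfl := ctx_inj hσ Γ Γ' h2 h4
    obtain rfl : x = y := h1
    obtain rfl : A = B := trq_inj (hσ.env _) h3
    rfl

/-- A named judgment with the names `l` and the given translation. -/
def Lifts (P : PTS S) (σ : V → Tm S) (l : List V) (Δ : List (Tm S)) (T U : Tm S) : Prop :=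
  ∃ Γ M B, Typ P Γ M B ∧ Γ.map Prod.fst = l ∧ ctx σ Γ = Δ ∧ trq (env σ l) M = T ∧
    trq (env σ l) B = U

theorem Lifts.at (hσ : Good σ) {Γ : List (V × Expr S V)} {T U : Tm S}
    (h : Lifts P σ (Γ.map Prod.fst) (ctx σ Γ) T U) : ∃ M B, Typ P Γ M B ∧
      trq (env σ (Γ.map Prod.fst)) M = T ∧ trq (env σ (Γ.map Prod.fst)) B = U := by
  obtain ⟨Γ', M, B, h1, h2, h3, h4⟩ := h
  obtain rfl := ctx_inj hσ _ _ h2 h3
  exact ⟨M, B, h1, h4⟩

theorem lift_typ (hσ : Good σ) {Δ : List (Tm S)} {T U : Tm S} (h : P340.Typ P.sp Δ T U) :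
    ∀ l : List V, l.Nodup → l.length = Δ.length → Lifts P σ l Δ T U := by
  have so : ∀ {l : List V} {B : Expr S V} {s : S}, trq (env σ l) B = .sort s → B = .sort s :=
    fun e => trq_inj (hσ.env _) e
  have fr : ∀ l : List V, ∃ x, x ∉ l := fun l => by
    simpa only [List.mem_toFinset] using Infinite.exists_notMem_finset l.toFinset
  induction h with
  | @ax s t h =>
    intro l _ hl
    obtain rfl := List.length_eq_zero_iff.1 hl
    exact ⟨[], .sort s, .sort t, .ax h, rfl, rfl, rfl, rfl⟩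
  | var _ ih =>
    rintro (_ | ⟨x, l⟩) hl e
    · cases e
    obtain ⟨hx, hl⟩ := List.nodup_cons.1 hl
    obtain ⟨Γ, M, B, h1, rfl, rfl, rfl, h2⟩ := ih l hl (Nat.succ_injective e)
    obtain rfl := so h2
    exact ⟨(x, M) :: Γ, .var x, M, .var hx h1, rfl, rfl, if_pos rfl, (h1.wk hx _).1⟩
  | weak _ _ ih ih' =>
    rintro (_ | ⟨x, l⟩) hl e
    · cases e
    obtain ⟨hx, hl⟩ := List.nodup_cons.1 hl
    obtain ⟨Γ, M, B, h1, rfl, rfl, rfl, rfl⟩ := ih l hl (Nat.succ_injective e)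
    obtain ⟨A, C, h2, rfl, h3⟩ := (ih' _ hl (Nat.succ_injective e)).at hσ
    obtain rfl := so h3
    exact ⟨(x, A) :: Γ, M, B, .weak hx h1 h2, rfl, rfl, (h1.wk hx _).1, (h1.wk hx _).2⟩
  | pi _ _ h ih ih' =>
    intro l hl e
    obtain ⟨x, hx⟩ := fr l
    obtain ⟨Γ, A, C, h1, rfl, rfl, rfl, h2⟩ := ih l hl e
    obtain rfl := so h2
    obtain ⟨B, C, h3, rfl, h4⟩ := Lifts.at hσ (Γ := (x, A) :: Γ)
      (ih' _ (List.nodup_cons.2 ⟨hx, hl⟩) (congrArg Nat.succ e))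
    obtain rfl := so h4
    exact ⟨Γ, .pi x A B, .sort _, .pi hx h1 h3 h, rfl, rfl, trq_pi _ _ _ _, rfl⟩
  | lam _ _ ih ih' =>
    intro l hl e
    obtain ⟨x, hx⟩ := fr l
    obtain ⟨Γ', M, B, h1, h2, h3, rfl, rfl⟩ :=
      ih _ (List.nodup_cons.2 ⟨hx, hl⟩) (congrArg Nat.succ e)
    obtain _ | ⟨⟨y, A⟩, Γ⟩ := Γ'
    · cases h2
    obtain ⟨rfl, rfl⟩ := List.cons.inj h2
    obtain ⟨rfl, rfl⟩ := List.cons.inj h3
    obtain ⟨D, C, h4, h5, h6⟩ := (ih' _ hl e).at hσ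
    obtain rfl := so h6
    obtain rfl : D = .pi y A B := trq_inj (hσ.env _) (h5.trans (trq_pi _ _ _ _).symm)
    exact ⟨Γ, .lam y A M, .pi y A B, .lam hx h1 h4, rfl, rfl, trq_lam _ _ _ _, trq_pi _ _ _ _⟩
  | app _ _ ih ih' =>
    intro l hl e
    obtain ⟨Γ, M, D, h1, rfl, rfl, rfl, h2⟩ := ih l hl e
    obtain ⟨x, A, B, rfl⟩ := inv_pi (hσ.env _) h2
    rw [trq_pi] at h2
    obtain ⟨rfl, rfl⟩ := Tm.pi.inj h2
    obtain ⟨N, C, h3, rfl, h4⟩ := (ih' _ hl e).at hσ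
    obtain rfl := trq_inj (hσ.env _) h4
    obtain ⟨Q, hQ⟩ := exists_sub B x N
    exact ⟨Γ, .app M N, Q, .app h1 h3 hQ, rfl, rfl, trq_app _ _ _, hQ.trq_eq _⟩
  | conv _ _ h ih ih' =>
    intro l hl e
    obtain ⟨Γ, M, A, h1, rfl, rfl, rfl, rfl⟩ := ih l hl e
    obtain ⟨B, C, h2, rfl, h3⟩ := (ih' _ hl e).at hσ
    obtain rfl := so h3
    exact ⟨Γ, M, B, .conv h1 h2 (lift_conv (hσ.env _) h), rfl, rfl, rfl, rfl⟩

omit [DecidableEq V] in
theorem exists_names (n : ℕ) : ∃ l : List V, l.Nodup ∧ l.length = n :=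
  ⟨(List.range n).map (Infinite.natEmbedding V),
    List.nodup_range.map (Infinite.natEmbedding V).injective, by simp⟩

theorem lift_legal (hσ : Good σ) {T : Tm S} (h : P340.Legal P.sp T) :
    ∃ (τ : V → Tm S) (M : Expr S V), Good τ ∧ Legal P M ∧ trq τ M = T := by
  obtain ⟨Δ, U, h | h⟩ := h
  · obtain ⟨l, h1, h2⟩ := exists_names (V := V) Δ.length
    obtain ⟨Γ, M, B, h3, -, -, h4, -⟩ := lift_typ hσ h l h1 h2
    exact ⟨_, M, hσ.env l, ⟨Γ, B, .inl h3⟩, h4⟩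
  · obtain ⟨l, h1, h2⟩ := exists_names (V := V) Δ.length
    obtain ⟨Γ, M, B, h3, -, -, -, h4⟩ := lift_typ hσ h l h1 h2
    exact ⟨_, B, hσ.env l, ⟨Γ, M, .inr h3⟩, h4⟩

omit [DecidableEq V] [Infinite V] in
theorem exists_good (S : Type u) (V : Type v) [Countable V] : ∃ σ : V → Tm S, Good σ := by
  obtain ⟨f, hf⟩ := exists_injective_nat V
  exact ⟨fun y => .var (f y), fun _ _ e => hf (Tm.var.inj e), fun y => ⟨f y, rfl⟩⟩

theorem sn_of_wn [Countable V] (h : WN P V) : SN P V := by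
  obtain ⟨σ, hσ⟩ := exists_good S V
  have h1 : P340.WN P.sp := fun T hT => by
    obtain ⟨τ, M, hτ, hM, rfl⟩ := lift_legal hσ hT
    obtain ⟨N, h2, h3⟩ := h M hM
    refine ⟨trq τ N, ?_, fun Q hQ => ?_⟩
    · clear h3
      induction h2 with
      | refl => exact Relation.ReflTransGen.refl
      | tail _ h ih => exact ih.tail (h.trq τ)
    · obtain ⟨Q', h4, -⟩ := lift_stepq hτ hQ
      exact h3 Q' h4
  rintro M ⟨Γ, A, hM⟩ ⟨f, rfl, hf⟩
  exact (P340.main P.sp).1 h1 (trq (env σ (Γ.map Prod.fst)) (f 0))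
    ⟨ctx σ Γ, trq _ A, hM.imp (fun h => h.trq σ) fun h => h.trq σ⟩
    ⟨fun n => trq _ (f n), rfl, fun n => (hf n).trq _⟩

omit [Infinite V] in
theorem wn_of_sn (h : SN P V) : WN P V := by
  intro M hM
  by_contra h1
  have h2 : ∀ N : {N // Relation.ReflTransGen Step M N},
      ∃ Q : {N // Relation.ReflTransGen Step M N}, Step N.1 Q.1 := fun N => by
    by_contra h3
    exact h1 ⟨N.1, N.2, fun Q hQ => h3 ⟨⟨Q, N.2.tail hQ⟩, hQ⟩⟩
  choose g hg using h2
  exact h M hM ⟨fun n => (g^[n] ⟨M, .refl⟩).1, rfl, fun n => by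
    simp only [Function.iterate_succ_apply']
    exact hg _⟩

theorem existsUnique_sub [Countable V] (M : Expr S V) (x : V) (N : Expr S V) :
    ∃! Q, IsSub M x N Q := by
  obtain ⟨σ, hσ⟩ := exists_good S V
  obtain ⟨Q, hQ⟩ := exists_sub M x N
  exact ⟨Q, hQ, fun Q' h => trq_inj hσ ((h.trq_eq σ).trans (hQ.trq_eq σ).symm)⟩

omit [Infinite V] in
theorem Typ.nodup {Γ : List (V × Expr S V)} {M B : Expr S V} (h : Typ P Γ M B) :
    (Γ.map Prod.fst).Nodup := by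
  induction h with
  | ax _ => exact List.nodup_nil
  | var hx _ ih => exact List.nodup_cons.2 ⟨hx, ih⟩
  | weak hx _ _ ih _ => exact List.nodup_cons.2 ⟨hx, ih⟩
  | pi _ _ _ _ ih _ => exact ih
  | lam _ _ _ _ ih => exact ih
  | app _ _ _ ih _ => exact ih
  | conv _ _ _ ih _ => exact ih

end Vale.Agent.P340N2
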