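import Vale.Agent.P340N2.Defs
import Vale.Agent.P340.Bdl.B1

/-!
Translation of named expressions to de Bruijn terms.
-/

namespace Vale.Agent.P340N2

universe u v

open P340 (Tm)
open P340.Tm Raw

variable {S : Type u} {V : Type v} [DecidableEq V]

/-- Environment under a binder. -/
def lift (x : V) (σ : V → Tm S) : V → Tm S := fun y => if y = x then .var 0 else wk (σ y)

/-- The translation in the environment `σ`. -/
def tr : (V → Tm S) → Raw S V → Tm S
  | σ, .var x => σ x
  | _, .sort s => .sort s
  | σ, .app M N => .app (tr σ M) (tr σ N)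
  | σ, .lam x A M => .lam (tr σ A) (tr (lift x σ) M)
  | σ, .pi x A B => .pi (tr σ A) (tr (lift x σ) B)

theorem lift_congr {x : V} {s : Finset V} {σ σ' : V → Tm S}
    (h : ∀ y ∈ s.erase x, σ y = σ' y) : ∀ y ∈ s, lift x σ y = lift x σ' y := by
  intro y hy
  unfold lift
  split_ifs with h1
  · rfl
  · rw [h y (Finset.mem_erase.2 ⟨h1, hy⟩)]

theorem tr_congr (M : Raw S V) : ∀ σ σ' : V → Tm S, (∀ y ∈ fv M, σ y = σ' y) →
    tr σ M = tr σ' M := by
  induction M with
  | var x => exact fun σ σ' h => h x (Finset.mem_singleton_self x)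
  | sort s => exact fun _ _ _ => rfl
  | app M N ihM ihN =>
    intro σ σ' h
    rw [tr, tr, ihM σ σ' fun y hy => h y (Finset.mem_union_left _ hy),
      ihN σ σ' fun y hy => h y (Finset.mem_union_right _ hy)]
  | lam x A M ihA ihM =>
    intro σ σ' h
    rw [tr, tr, ihA σ σ' fun y hy => h y (Finset.mem_union_left _ hy),
      ihM _ _ (lift_congr fun y hy => h y (Finset.mem_union_right _ hy))]
  | pi x A M ihA ihM =>
    intro σ σ' h
    rw [tr, tr, ihA σ σ' fun y hy => h y (Finset.mem_union_left _ hy),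
      ihM _ _ (lift_congr fun y hy => h y (Finset.mem_union_right _ hy))]

theorem sub_lift (x : V) (σ : V → Tm S) (τ : ℕ → Tm S) :
    (fun y => sub (ups τ) (lift x σ y)) = lift x fun y => sub τ (σ y) := by
  funext y
  unfold lift
  split_ifs
  · rfl
  · exact sub_wk τ (σ y)

theorem sub_tr (M : Raw S V) : ∀ (σ : V → Tm S) (τ : ℕ → Tm S),
    sub τ (tr σ M) = tr (fun y => sub τ (σ y)) M := by
  induction M with
  | var x => exact fun _ _ => rfl
  | sort s => exact fun _ _ => rfl
  | app M N ihM ihN => intro σ τ; simp only [tr, sub, ihM, ihN]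
  | lam x A M ihA ihM => intro σ τ; simp only [tr, sub, ihA, ihM, sub_lift]
  | pi x A M ihA ihM => intro σ τ; simp only [tr, sub, ihA, ihM, sub_lift]

theorem wk_tr (M : Raw S V) (σ : V → Tm S) : wk (tr σ M) = tr (fun y => wk (σ y)) M := by
  simp only [wk, ren_eq_sub, sub_tr]

theorem tr_lift {M : Raw S V} {x : V} (h : x ∉ fv M) (σ : V → Tm S) :
    tr (lift x σ) M = wk (tr σ M) := by
  rw [wk_tr]
  exact tr_congr M _ _ fun y hy => if_neg fun e : y = x => h (e ▸ hy)

theorem inst_tr (M : Raw S V) (x : V) (σ : V → Tm S) (T : Tm S) :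
    inst (tr (lift x σ) M) T = tr (Function.update σ x T) M := by
  rw [inst, sub_tr]
  congr 1
  funext y
  unfold lift
  split_ifs with h
  · rw [h, Function.update_self]
    rfl
  · rw [Function.update_of_ne h, sub_single_wk]

theorem tr_body {x y : V} {M N : Raw S V} (σ : V → Tm S) (hy : y ∉ fv N)
    (ih : tr (lift y σ) (rep M x N) =
      tr (Function.update (lift y σ) x (tr (lift y σ) N)) M) :
    tr (lift y σ) (if y = x then M else rep M x N) =
      tr (lift y (Function.update σ x (tr σ N))) M := by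
  split_ifs with h
  · congr 1
    funext z
    unfold lift
    split_ifs with h1
    · rfl
    · rw [Function.update_of_ne (h ▸ h1)]
  · rw [ih, tr_lift hy]
    congr 1
    funext z
    by_cases h1 : z = x
    · rw [h1, Function.update_self, lift, if_neg (Ne.symm h), Function.update_self]
    · rw [Function.update_of_ne h1, lift, lift, Function.update_of_ne h1]

theorem tr_rep (M : Raw S V) (x : V) (N : Raw S V) : ∀ σ : V → Tm S, Disjoint (bv M) (fv N) →
    tr σ (rep M x N) = tr (Function.update σ x (tr σ N)) M := by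
  induction M with
  | var y =>
    intro σ _
    rw [rep, tr]
    split_ifs with h
    · rw [h, Function.update_self]
    · rw [Function.update_of_ne h, tr]
  | sort s => exact fun _ _ => rfl
  | app M M' ihM ihM' =>
    intro σ h
    rw [bv, Finset.disjoint_union_left] at h
    rw [rep, tr, tr, ihM σ h.1, ihM' σ h.2]
  | lam y A M ihA ihM =>
    intro σ h
    rw [bv, Finset.disjoint_insert_left, Finset.disjoint_union_left] at h
    rw [rep, tr, tr, ihA σ h.2.1, tr_body σ h.1 (ihM _ h.2.2)]
  | pi y A M ihA ihM =>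
    intro σ h
    rw [bv, Finset.disjoint_insert_left, Finset.disjoint_union_left] at h
    rw [rep, tr, tr, ihA σ h.2.1, tr_body σ h.1 (ihM _ h.2.2)]

theorem tr_ren {M : Raw S V} {x y : V} (h1 : y ∉ fv M) (h2 : y ∉ bv M) (σ : V → Tm S) :
    tr (lift y σ) (rep M x (.var y)) = tr (lift x σ) M := by
  rw [tr_rep _ _ _ _ (Finset.disjoint_singleton_right.2 h2)]
  refine tr_congr M _ _ fun z hz => ?_
  by_cases h : z = x
  · rw [h, Function.update_self, tr, lift, lift, if_pos rfl, if_pos rfl]
  · rw [Function.update_of_ne h, lift, lift, if_neg h, if_neg fun e : z = y => h1 (e ▸ hz)]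

theorem tr_chg {M N : Raw S V} (h : Chg M N) : ∀ σ : V → Tm S, tr σ M = tr σ N := by
  induction h with
  | lam x y A M h1 h2 => intro σ; rw [tr, tr, tr_ren h1 h2]
  | pi x y A M h1 h2 => intro σ; rw [tr, tr, tr_ren h1 h2]
  | appL N _ ih => intro σ; rw [tr, tr, ih]
  | appR N _ ih => intro σ; rw [tr, tr, ih]
  | lamL x N _ ih => intro σ; rw [tr, tr, ih]
  | lamR x N _ ih => intro σ; rw [tr, tr, ih]
  | piL x N _ ih => intro σ; rw [tr, tr, ih]
  | piR x N _ ih => intro σ; rw [tr, tr, ih]

/-- The translation of expressions. -/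
def trq (σ : V → Tm S) : Expr S V → Tm S := Quot.lift (tr σ) fun _ _ h => tr_chg h σ

theorem trq_app (σ : V → Tm S) (M N : Expr S V) :
    trq σ (.app M N) = .app (trq σ M) (trq σ N) := by
  induction M using Quot.ind
  induction N using Quot.ind
  rfl

theorem trq_lam (σ : V → Tm S) (x : V) (M N : Expr S V) :
    trq σ (.lam x M N) = .lam (trq σ M) (trq (lift x σ) N) := by
  induction M using Quot.ind
  induction N using Quot.ind
  rfl

theorem trq_pi (σ : V → Tm S) (x : V) (M N : Expr S V) :
    trq σ (.pi x M N) = .pi (trq σ M) (trq (lift x σ) N) := by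
  induction M using Quot.ind
  induction N using Quot.ind
  rfl

theorem wk_trq (M : Expr S V) (σ : V → Tm S) : wk (trq σ M) = trq (fun y => wk (σ y)) M := by
  induction M using Quot.ind
  exact wk_tr _ σ

theorem IsSub.trq_eq {M N Q : Expr S V} {x : V} (h : IsSub M x N Q) (σ : V → Tm S) :
    trq σ Q = inst (trq (lift x σ) M) (trq σ N) := by
  obtain ⟨m, n, rfl, rfl, h, rfl⟩ := h
  exact (tr_rep m x n σ h).trans (inst_tr m x σ _).symm

/-- Environments that rename variables injectively. -/
def Good (σ : V → Tm S) : Prop := Function.Injective σ ∧ ∀ y, ∃ n, σ y = .var n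

theorem Good.lift {σ : V → Tm S} (h : Good σ) (x : V) : Good (lift x σ) := by
  refine ⟨fun y z e => ?_, fun y => ?_⟩
  · obtain ⟨n, hn⟩ := h.2 y
    obtain ⟨m, hm⟩ := h.2 z
    unfold P340N2.lift at e
    rw [hn, hm] at e
    split_ifs at e with h1 h2 h2
    · rw [h1, h2]
    · cases e
    · cases e
    · refine h.1 ?_
      rw [hn, hm, Nat.succ_injective (Tm.var.inj e)]
  · obtain ⟨n, hn⟩ := h.2 y
    unfold P340N2.lift
    split_ifs
    · exact ⟨0, rfl⟩
    · exact ⟨n + 1, by rw [hn]; rfl⟩

/-- The size of a word. -/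
def sz : Raw S V → ℕ
  | .var _ => 0
  | .sort _ => 0
  | .app M N => sz M + sz N + 1
  | .lam _ A M => sz A + sz M + 1
  | .pi _ A M => sz A + sz M + 1

theorem sz_rep (M : Raw S V) (x y : V) : sz (rep M x (.var y)) = sz M := by
  induction M with
  | var z => rw [rep]; split_ifs <;> rfl
  | sort s => rfl
  | app M N ihM ihN => rw [rep, sz, sz, ihM, ihN]
  | lam z A M ihA ihM => rw [rep, sz, sz, ihA]; split_ifs <;> simp only [ihM]
  | pi z A M ihA ihM => rw [rep, sz, sz, ihA]; split_ifs <;> simp only [ihM]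

theorem bv_rep (M : Raw S V) (x y : V) : bv (rep M x (.var y)) = bv M := by
  induction M with
  | var z => rw [rep]; split_ifs <;> rfl
  | sort s => rfl
  | app M N ihM ihN => rw [rep, bv, bv, ihM, ihN]
  | lam z A M ihA ihM => rw [rep, bv, bv, ihA]; split_ifs <;> simp only [ihM]
  | pi z A M ihA ihM => rw [rep, bv, bv, ihA]; split_ifs <;> simp only [ihM]

end Vale.Agent.P340N2
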